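import Vale.Agent.P214.TAYL.Main

/-!
# P214, block INTERP: interpolation of derivatives on a ball

`‖D^k f(x₀)‖ ≤ C (ρ^{-k} sup ‖f‖ + ρ^{s-k} sup ‖D^s f‖)`, the suprema over the ball of radius `ρ`
about `x₀`, `C` depends only on `s`.
-/

open Set Metric Filter Topology MeasureTheory

namespace Vale.Agent.P214.INTERP

universe u

variable {E : Type u} [NormedAddCommGroup E] [NormedSpace ℝ E]

/-- Taylor's formula with a bound of the remainder. -/
lemma taylor_le {F : Type u} [NormedAddCommGroup F] [NormedSpace ℝ F] [CompleteSpace F]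
    (k : ℕ) {v : E → F} {x y : E} {r B : ℝ}
    (hv : ∀ z, ‖z - x‖ ≤ r → ContDiffAt ℝ (k + 1) v z)
    (hB : ∀ z, ‖z - x‖ ≤ r → ‖iteratedFDeriv ℝ (k + 1) v z‖ ≤ B) (hy : ‖y‖ ≤ r) :
    ‖v (x + y) - ∑ j ∈ Finset.range (k + 1),
      ((j.factorial : ℝ)⁻¹) • iteratedFDeriv ℝ j v x (fun _ => y)‖ ≤ B * r ^ (k + 1) := by
  have hr : 0 ≤ r := (norm_nonneg _).trans hy
  have hB0 : 0 ≤ B := le_trans (norm_nonneg _) (hB x (by simpa using hr))
  have hseg : ∀ t : ℝ, t ∈ Set.Icc (0 : ℝ) 1 → ‖(x + t • y) - x‖ ≤ r := by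
    intro t ht
    rw [add_sub_cancel_left, norm_smul, Real.norm_eq_abs, abs_of_nonneg ht.1]
    calc t * ‖y‖ ≤ 1 * ‖y‖ := mul_le_mul_of_nonneg_right ht.2 (norm_nonneg _)
      _ ≤ r := by rw [one_mul]; exact hy
  have h1 := map_add_eq_sum_add_integral_iteratedFDeriv (f := v) (x := x) (y := y) (n := k)
    (fun t ht => hv _ (hseg t ht))
  have h2 : v (x + y) - ∑ j ∈ Finset.range (k + 1),
      ((j.factorial : ℝ)⁻¹) • iteratedFDeriv ℝ j v x (fun _ => y) =
      ((k.factorial : ℝ)⁻¹) • ∫ t in (0 : ℝ)..1, (1 - t) ^ k •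
        iteratedFDeriv ℝ (k + 1) v (x + t • y) (fun _ => y) := by
    rw [h1, add_sub_cancel_left]
  rw [h2, norm_smul]
  have h3 : ‖∫ t in (0 : ℝ)..1, (1 - t) ^ k •
        iteratedFDeriv ℝ (k + 1) v (x + t • y) (fun _ => y)‖ ≤
      (B * r ^ (k + 1)) * |1 - 0| := by
    refine intervalIntegral.norm_integral_le_of_norm_le_const ?_
    intro t ht
    rw [Set.uIoc_of_le zero_le_one] at ht
    have ht' : t ∈ Set.Icc (0 : ℝ) 1 := ⟨ht.1.le, ht.2⟩
    rw [norm_smul]
    have h4 : ‖(1 - t) ^ k‖ ≤ 1 := by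
      rw [norm_pow, Real.norm_eq_abs, abs_of_nonneg (by linarith [ht.2])]
      exact pow_le_one₀ (by linarith [ht.2]) (by linarith [ht.1])
    have h5 : ‖iteratedFDeriv ℝ (k + 1) v (x + t • y) (fun _ => y)‖ ≤ B * r ^ (k + 1) := by
      refine (ContinuousMultilinearMap.le_opNorm _ _).trans ?_
      rw [Finset.prod_const, Finset.card_univ, Fintype.card_fin]
      exact mul_le_mul (hB _ (hseg t ht')) (pow_le_pow_left₀ (norm_nonneg _) hy _)
        (by positivity) hB0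
    calc ‖(1 - t) ^ k‖ * ‖iteratedFDeriv ℝ (k + 1) v (x + t • y) (fun _ => y)‖
        ≤ 1 * (B * r ^ (k + 1)) := mul_le_mul h4 h5 (norm_nonneg _) zero_le_one
      _ = B * r ^ (k + 1) := one_mul _
  have h6 : ‖((k.factorial : ℝ)⁻¹)‖ ≤ 1 := by
    rw [norm_inv, Real.norm_eq_abs, abs_of_nonneg (by positivity)]
    exact inv_le_one_of_one_le₀ (by exact_mod_cast Nat.one_le_iff_ne_zero.2 (Nat.factorial_ne_zero k))
  calc ‖((k.factorial : ℝ)⁻¹)‖ * ‖∫ t in (0 : ℝ)..1, (1 - t) ^ k •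
        iteratedFDeriv ℝ (k + 1) v (x + t • y) (fun _ => y)‖
      ≤ 1 * ((B * r ^ (k + 1)) * |1 - 0|) := mul_le_mul h6 h3 (norm_nonneg _) zero_le_one
    _ = B * r ^ (k + 1) := by norm_num

/-- The first derivative is controlled by the function and its derivative of order `s + 1`. -/
lemma fderiv_le (s : ℕ) : ∃ C : ℝ, 1 ≤ C ∧ ∀ {F : Type u} [NormedAddCommGroup F]
    [NormedSpace ℝ F] [CompleteSpace F] (f : E → F) (x : E) (r A B : ℝ), 0 < r →
    (∀ z, ‖z - x‖ ≤ r → ContDiffAt ℝ (s + 1) f z) → (∀ z, ‖z - x‖ ≤ r → ‖f z‖ ≤ A) →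
    (∀ z, ‖z - x‖ ≤ r → ‖iteratedFDeriv ℝ (s + 1) f z‖ ≤ B) →
    ‖fderiv ℝ f x‖ ≤ C * (A * r⁻¹ + B * r ^ s) := by
  rcases s with _ | s
  · refine ⟨1, le_refl _, ?_⟩
    intro F _ _ _ f x r A B hr hf hA hB
    have h0 := hB x (by simpa using hr.le)
    rw [zero_add, norm_iteratedFDeriv_one] at h0
    have hA0 : 0 ≤ A := le_trans (norm_nonneg _) (hA x (by simpa using hr.le))
    have : 0 ≤ A * r⁻¹ := by positivity
    rw [pow_zero, mul_one, one_mul]
    linarith
  · obtain ⟨c, t, ht, hc⟩ := TAYL.exists_weights (s + 1)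
    refine ⟨(∑ i, |c i|) + 1, by
      have : 0 ≤ ∑ i, |c i| := Finset.sum_nonneg fun i _ => abs_nonneg _
      linarith, ?_⟩
    intro F _ _ _ f x r A B hr hf hA hB
    have hA0 : 0 ≤ A := le_trans (norm_nonneg _) (hA x (by simpa using hr.le))
    have hB0 : 0 ≤ B := le_trans (norm_nonneg _) (hB x (by simpa using hr.le))
    have hS0 : 0 ≤ ∑ i, |c i| := Finset.sum_nonneg fun i _ => abs_nonneg _
    have key : ∀ v : E, ‖v‖ ≤ r → ‖fderiv ℝ f x v‖ ≤
        ((∑ i, |c i|) + 1) * (A + B * r ^ (s + 2)) := by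
      intro v hv
      have hti : ∀ i, ‖t i • v‖ ≤ r := by
        intro i
        rw [norm_smul, Real.norm_eq_abs]
        calc |t i| * ‖v‖ ≤ 1 * r := mul_le_mul (ht i) hv (norm_nonneg _) zero_le_one
          _ = r := one_mul _
      have h1 : fderiv ℝ f x v = ∑ i, c i • ∑ j ∈ Finset.range (s + 1 + 1),
          ((j.factorial : ℝ)⁻¹) • iteratedFDeriv ℝ j f x (fun _ => t i • v) := by
        have h2 : ∀ i, ∀ j ∈ Finset.range (s + 1 + 1),
            ((j.factorial : ℝ)⁻¹) • iteratedFDeriv ℝ j f x (fun _ => t i • v) =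
            (t i ^ j) • (((j.factorial : ℝ)⁻¹) • iteratedFDeriv ℝ j f x (fun _ => v)) := by
          intro i j _
          rw [ContinuousMultilinearMap.map_smul_univ]
          rw [Finset.prod_const, Finset.card_univ, Fintype.card_fin, smul_comm]
        simp_rw [Finset.smul_sum]
        rw [Finset.sum_congr rfl fun i _ => Finset.sum_congr rfl fun j hj => by rw [h2 i j hj]]
        rw [Finset.sum_comm]
        have h3 : ∀ j ∈ Finset.range (s + 1 + 1), ∑ i, c i • ((t i ^ j) •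
            (((j.factorial : ℝ)⁻¹) • iteratedFDeriv ℝ j f x (fun _ => v))) =
            if j = 1 then fderiv ℝ f x v else 0 := by
          intro j hj
          simp_rw [smul_smul, ← Finset.sum_smul]
          have h4 : ∑ i, c i * (t i ^ j * ((j.factorial : ℝ)⁻¹)) =
              (∑ i, c i * t i ^ j) * ((j.factorial : ℝ)⁻¹) := by
            rw [Finset.sum_mul]
            exact Finset.sum_congr rfl fun i _ => by ring
          rw [h4, hc j (Finset.mem_range.1 hj)]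
          split_ifs with hj1
          · subst hj1
            rw [iteratedFDeriv_one_apply]
            simp
          · simp
        rw [Finset.sum_congr rfl h3, Finset.sum_ite_eq']
        simp
      have h5 : fderiv ℝ f x v = ∑ i, c i • f (x + t i • v) - ∑ i, c i • (f (x + t i • v) -
          ∑ j ∈ Finset.range (s + 1 + 1),
          ((j.factorial : ℝ)⁻¹) • iteratedFDeriv ℝ j f x (fun _ => t i • v)) := by
        rw [h1, ← Finset.sum_sub_distrib]
        refine Finset.sum_congr rfl fun i _ => ?_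
        rw [smul_sub]
        abel
      rw [h5]
      calc _ ≤ ‖∑ i, c i • f (x + t i • v)‖ + ‖∑ i, c i • (f (x + t i • v) -
          ∑ j ∈ Finset.range (s + 1 + 1),
          ((j.factorial : ℝ)⁻¹) • iteratedFDeriv ℝ j f x (fun _ => t i • v))‖ := norm_sub_le _ _
        _ ≤ ∑ i, |c i| * A + ∑ i, |c i| * (B * r ^ (s + 2)) := by
            refine add_le_add ?_ ?_
            · refine (norm_sum_le _ _).trans (Finset.sum_le_sum fun i _ => ?_)
              rw [norm_smul, Real.norm_eq_abs]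
              refine mul_le_mul_of_nonneg_left (hA _ ?_) (abs_nonneg _)
              rw [add_sub_cancel_left]
              exact hti i
            · refine (norm_sum_le _ _).trans (Finset.sum_le_sum fun i _ => ?_)
              rw [norm_smul, Real.norm_eq_abs]
              refine mul_le_mul_of_nonneg_left ?_ (abs_nonneg _)
              refine taylor_le (s + 1) (fun z hz => ?_) hB (hti i)
              exact_mod_cast hf z hz
        _ = (∑ i, |c i|) * (A + B * r ^ (s + 2)) := by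
            rw [← Finset.sum_mul, ← Finset.sum_mul]; ring
        _ ≤ _ := by
            refine mul_le_mul_of_nonneg_right (by linarith) (by positivity)
    refine ContinuousLinearMap.opNorm_le_bound _ (by positivity) ?_
    intro w
    by_cases hw : w = 0
    · simp [hw]
    have hw0 : 0 < ‖w‖ := norm_pos_iff.2 hw
    have h1 := key ((r / ‖w‖) • w) (by
      rw [norm_smul, Real.norm_eq_abs, abs_of_pos (by positivity)]
      rw [div_mul_cancel₀ _ hw0.ne'])
    rw [map_smul, norm_smul, Real.norm_eq_abs, abs_of_pos (by positivity : 0 < r / ‖w‖)] at h1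
    have h3 : ‖fderiv ℝ f x w‖ = (r / ‖w‖ * ‖fderiv ℝ f x w‖) * (‖w‖ / r) := by
      field_simp
    rw [h3]
    calc (r / ‖w‖ * ‖fderiv ℝ f x w‖) * (‖w‖ / r)
        ≤ (((∑ i, |c i|) + 1) * (A + B * r ^ (s + 2))) * (‖w‖ / r) :=
          mul_le_mul_of_nonneg_right h1 (by positivity)
      _ = ((∑ i, |c i|) + 1) * (A * r⁻¹ + B * r ^ (s + 1)) * ‖w‖ := by
          field_simp
          ring

/-- **Interpolation of derivatives** on a ball; the constant depends only on `s` (and `E`). -/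
theorem interp (s : ℕ) : ∃ C : ℝ, 1 ≤ C ∧ ∀ {F : Type u} [NormedAddCommGroup F]
    [NormedSpace ℝ F] [CompleteSpace F] (f : E → F) (x₀ : E) (ρ A B : ℝ), 0 < ρ →
    (∀ z ∈ ball x₀ ρ, ContDiffAt ℝ s f z) → (∀ z ∈ ball x₀ ρ, ‖f z‖ ≤ A) →
    (∀ z ∈ ball x₀ ρ, ‖iteratedFDeriv ℝ s f z‖ ≤ B) → ∀ k ≤ s,
    ‖iteratedFDeriv ℝ k f x₀‖ ≤ C * (A * (ρ ^ k)⁻¹ + B * ρ ^ (s - k)) := by
  induction s with
  | zero =>
    refine ⟨1, le_refl _, ?_⟩
    intro F _ _ _ f x₀ ρ A B hρ _ hA hB k hk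
    obtain rfl : k = 0 := by omega
    have h1 := hA x₀ (mem_ball_self hρ)
    have h2 := hB x₀ (mem_ball_self hρ)
    have hB0 := (norm_nonneg _).trans h2
    rw [norm_iteratedFDeriv_zero]
    simp only [pow_zero, inv_one, mul_one, tsub_self, one_mul]
    linarith
  | succ s ih =>
    obtain ⟨C, hC, ih⟩ := ih
    obtain ⟨C₁, hC₁, h1⟩ := fderiv_le (E := E) s
    refine ⟨2 ^ (s + 1) * C * (C₁ * 4 + 1), by
      have : (1 : ℝ) ≤ 2 ^ (s + 1) := one_le_pow₀ (by norm_num)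
      have h3 : (1 : ℝ) ≤ C₁ * 4 + 1 := by linarith
      calc (1 : ℝ) = 1 * 1 * 1 := by norm_num
        _ ≤ 2 ^ (s + 1) * C * (C₁ * 4 + 1) := by gcongr, ?_⟩
    intro F _ _ _ f x₀ ρ A B hρ hf hA hB k hk
    have hA0 := (norm_nonneg _).trans (hA x₀ (mem_ball_self hρ))
    have hB0 := (norm_nonneg _).trans (hB x₀ (mem_ball_self hρ))
    have h2 : (1 : ℝ) ≤ 2 ^ (s + 1) := one_le_pow₀ (by norm_num)
    rcases k with _ | k
    · rw [norm_iteratedFDeriv_zero]
      have h3 := hA x₀ (mem_ball_self hρ)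
      calc ‖f x₀‖ ≤ A := h3
        _ ≤ 1 * 1 * 1 * (A * (ρ ^ 0)⁻¹ + B * ρ ^ (s + 1 - 0)) := by
            have : 0 ≤ B * ρ ^ (s + 1 - 0) := by positivity
            simp only [pow_zero, inv_one, mul_one, one_mul]
            linarith
        _ ≤ 2 ^ (s + 1) * C * (C₁ * 4 + 1) * (A * (ρ ^ 0)⁻¹ + B * ρ ^ (s + 1 - 0)) := by
            gcongr
            linarith
    · -- bound of the first derivative on the half ball
      have hg : ∀ x ∈ ball x₀ (ρ / 2), ‖fderiv ℝ f x‖ ≤ C₁ * (A * (ρ / 4)⁻¹ + B * (ρ / 4) ^ s) := by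
        intro x hx
        have hz : ∀ z, ‖z - x‖ ≤ ρ / 4 → z ∈ ball x₀ ρ := by
          intro z hz
          rw [mem_ball, dist_eq_norm] at hx ⊢
          calc ‖z - x₀‖ = ‖(z - x) + (x - x₀)‖ := by congr 1; abel
            _ ≤ ‖z - x‖ + ‖x - x₀‖ := norm_add_le _ _
            _ < ρ := by linarith
        refine h1 f x (ρ / 4) A B (by positivity) (fun z h => ?_) (fun z h => hA z (hz z h))
          (fun z h => hB z (hz z h))
        exact_mod_cast hf z (hz z h)
      have hsub2 : ∀ z ∈ ball x₀ (ρ / 2), z ∈ ball x₀ ρ := fun z hz =>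
        ball_subset_ball (by linarith) hz
      have h4 := ih (fderiv ℝ f) x₀ (ρ / 2) _ B (by positivity) (fun z hz => by
        have := hf z (hsub2 z hz)
        exact ContDiffAt.fderiv_right this (by exact_mod_cast le_refl _)) hg (fun z hz => by
          rw [norm_iteratedFDeriv_fderiv]
          exact hB z (hsub2 z hz)) k (by omega)
      rw [norm_iteratedFDeriv_fderiv] at h4
      refine h4.trans ?_
      have hk' : k ≤ s := by omega
      have e1 : s + 1 - (k + 1) = s - k := by omega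
      rw [e1]
      have e2 : ((ρ / 2) ^ k)⁻¹ = 2 ^ k * (ρ ^ k)⁻¹ := by
        rw [div_pow, inv_div]; field_simp
      have e3 : (ρ / 2) ^ (s - k) ≤ ρ ^ (s - k) := by gcongr; linarith
      have e4 : (ρ / 4) ^ s ≤ ρ ^ s := by gcongr; linarith
      have e5 : (ρ / 4)⁻¹ = 4 * ρ⁻¹ := by rw [inv_div]; field_simp
      have e6 : ρ ^ s * (ρ ^ k)⁻¹ = ρ ^ (s - k) := by
        rw [pow_sub₀ _ hρ.ne' hk']
      have e7 : ρ⁻¹ * (ρ ^ k)⁻¹ = (ρ ^ (k + 1))⁻¹ := by
        rw [pow_succ, mul_inv]; ring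
      have e8 : (2 : ℝ) ^ k ≤ 2 ^ (s + 1) := pow_le_pow_right₀ (by norm_num) (by omega)
      calc C * (C₁ * (A * (ρ / 4)⁻¹ + B * (ρ / 4) ^ s) * ((ρ / 2) ^ k)⁻¹ + B * (ρ / 2) ^ (s - k))
          ≤ C * (C₁ * (A * (4 * ρ⁻¹) + B * ρ ^ s) * (2 ^ (s + 1) * (ρ ^ k)⁻¹) +
            B * ρ ^ (s - k)) := by
            rw [e2, e5]
            gcongr
        _ = C * (C₁ * 2 ^ (s + 1) * (4 * A * (ρ⁻¹ * (ρ ^ k)⁻¹) + B * (ρ ^ s * (ρ ^ k)⁻¹)) +
            B * ρ ^ (s - k)) := by ring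
        _ = C * (C₁ * 2 ^ (s + 1) * (4 * (A * (ρ ^ (k + 1))⁻¹) + B * ρ ^ (s - k)) +
            B * ρ ^ (s - k)) := by rw [e6, e7]; ring
        _ ≤ C * (C₁ * 2 ^ (s + 1) * (4 * (A * (ρ ^ (k + 1))⁻¹) + 4 * (B * ρ ^ (s - k))) +
            2 ^ (s + 1) * (A * (ρ ^ (k + 1))⁻¹ + B * ρ ^ (s - k))) := by
            have hX : 0 ≤ A * (ρ ^ (k + 1))⁻¹ := by positivity
            have hY : 0 ≤ B * ρ ^ (s - k) := by positivity
            have hC0 : 0 ≤ C := by linarith
            have hD0 : 0 ≤ C₁ * 2 ^ (s + 1) := by positivity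
            generalize A * (ρ ^ (k + 1))⁻¹ = X at hX ⊢
            generalize B * ρ ^ (s - k) = Y at hY ⊢
            refine mul_le_mul_of_nonneg_left (add_le_add
              (mul_le_mul_of_nonneg_left ?_ hD0) ?_) hC0
            · linarith
            · nlinarith
        _ = 2 ^ (s + 1) * C * (C₁ * 4 + 1) * (A * (ρ ^ (k + 1))⁻¹ + B * ρ ^ (s - k)) := by ring

/-- Interpolation at every point of the smaller ball. -/
theorem interp_sub (s : ℕ) : ∃ C : ℝ, 1 ≤ C ∧ ∀ {F : Type u} [NormedAddCommGroup F]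
    [NormedSpace ℝ F] [CompleteSpace F] (f : E → F) (x₀ : E) (r ρ A B : ℝ), 0 < ρ →
    (∀ z ∈ ball x₀ r, ContDiffAt ℝ s f z) → (∀ z ∈ ball x₀ r, ‖f z‖ ≤ A) →
    (∀ z ∈ ball x₀ r, ‖iteratedFDeriv ℝ s f z‖ ≤ B) → ∀ x, ‖x - x₀‖ + ρ ≤ r → ∀ k ≤ s,
    ‖iteratedFDeriv ℝ k f x‖ ≤ C * (A * (ρ ^ k)⁻¹ + B * ρ ^ (s - k)) := by
  obtain ⟨C, hC, h⟩ := interp (E := E) s
  refine ⟨C, hC, ?_⟩
  intro F _ _ _ f x₀ r ρ A B hρ hf hA hB x hx k hk
  have hsub : ∀ z ∈ ball x ρ, z ∈ ball x₀ r := by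
    intro z hz
    rw [mem_ball, dist_eq_norm] at hz ⊢
    calc ‖z - x₀‖ = ‖(z - x) + (x - x₀)‖ := by congr 1; abel
      _ ≤ ‖z - x‖ + ‖x - x₀‖ := norm_add_le _ _
      _ < r := by linarith
  exact h f x ρ A B hρ (fun z hz => hf z (hsub z hz)) (fun z hz => hA z (hsub z hz))
    (fun z hz => hB z (hsub z hz)) k hk

end Vale.Agent.P214.INTERP
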